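import Vale.Agent.P100.Ineq.Normal

/-!
# P100: the conditions (i), (iii) of the final rule for `0 ≤ ξ ≤ S`, and `π₀ > 0` from (ii)
-/

namespace Vale.Agent.P100.Ineq

open OrbitCert

noncomputable section

variable {S f x z w : ℝ}

/-- Condition (i), uniformly. -/
theorem certPoint_v_ge (hf : 1 / 2 ≤ f) (hx1 : x ≤ 1) (hw : w ≤ f) :
    cEps f * (1 - f) ≤ (certPoint S f x z w).v := by
  rw [certPoint_v]
  simp only [cV, cH, cEps]
  have := mul_nonneg (show 0 ≤ 2 * f - 1 by linarith) (sub_nonneg.2 hx1)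
  linarith

/-- `iii` of the final rule as a sum of nonnegative terms. -/
theorem certPoint_iii_eq (hS : S ≠ 0) (hf : f ≠ 0) :
    (certPoint S f x z w).iii = 4 * S * f * cEps f * (1 - f) ^ 2
      + S * x * (f - w) * (S + 2) * (f + cEps f * cH f x - cEps f * x)
      + 2 * S * f * cEps f * (1 - x)
        * ((1 - f) * (1 + cEps f) + (1 + cEps f) * (1 - x)) := by
  simp only [Point.iii, Point.dim, certPoint, cH, cEps]
  field_simp
  ring

/-- Condition (iii), uniformly. -/
theorem certPoint_iii_ge (hS : 0 < S) (hf : 1 / 2 ≤ f) (hf1 : f ≤ 1) (hx0 : 0 ≤ x) (hx1 : x ≤ 1)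
    (hw : w ≤ f) : 4 * S * f * cEps f * (1 - f) ^ 2 ≤ (certPoint S f x z w).iii := by
  rw [certPoint_iii_eq hS.ne' (by linarith)]
  have hε : 0 ≤ cEps f := by unfold cEps; linarith
  have hε1 : cEps f ≤ f := by unfold cEps; linarith
  have hg : 0 ≤ 1 - f := by linarith
  have hy : 0 ≤ 1 - x := by linarith
  have hr : 0 ≤ f - w := by linarith
  have hk : 0 ≤ f + cEps f * cH f x - cEps f * x := by
    have := mul_nonneg hε (show 0 ≤ cH f x by unfold cH; linarith)
    have := mul_le_mul_of_nonneg_left hx1 hε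
    linarith
  have hf0 : 0 ≤ f := by linarith
  have : 0 ≤ S * x * (f - w) * (S + 2) * (f + cEps f * cH f x - cEps f * x) := by positivity
  have : 0 ≤ 2 * S * f * cEps f * (1 - x)
      * ((1 - f) * (1 + cEps f) + (1 + cEps f) * (1 - x)) := by positivity
  linarith

/-- `π₀ > 0` follows from the strict condition (ii). -/
theorem certPoint_pi_pos (hS : 0 < S) (hε : 0 < cEps f) (he : 0 < w + z - 1) (hv : 0 < cV f x w)
    (hw : 0 < w) (hE : 0 < cE S f x z w) : 0 < (certPoint S f x z w).π₀ := by
  have h : 0 < (w + z - 1) * cV f x w * w * cPP S f x z w := by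
    have : 0 ≤ cEps f * (w + z) * cLam S f x z w ^ 2 := by
      have : 0 < w + z := by linarith
      positivity
    unfold cE at hE
    linarith
  have hP : 0 < cPP S f x z w :=
    (mul_pos_iff_of_pos_left (mul_pos (mul_pos he hv) hw)).1 h
  have e := certPoint_pi (S := S) (f := f) (x := x) (z := z) (w := w) (by linarith) (by linarith)
  refine (mul_pos_iff_of_pos_left (show 0 < 4 * (S + 2) * (w + z) by
    have : 0 < w + z := by linarith
    positivity)).1 ?_
  rw [e]
  exact mul_pos hε hP

end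

end Vale.Agent.P100.Ineq
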