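import Mathlib

/-!
# Nonnegative coefficients, checked by one integer evaluation

An expression in variables on `[0, ∞)` is nonnegative when all coefficients of its expansion are.
The expansion is never formed: the expression is evaluated at `x i = 2 ^ (B * W i)`, where the
weights `W i` separate the monomials and `B` exceeds the size of every coefficient, and the top bit
of every block of `B` bits of the value is tested at once.
-/

namespace Vale.Agent.P100.Kron

open Finset

/-- Polynomial expressions. -/
inductive Ex : Type where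
  | num (k : ℤ)
  | var (i : ℕ)
  | add (a b : Ex)
  | sub (a b : Ex)
  | mul (a b : Ex)
  | pow (a : Ex) (n : ℕ)

namespace Ex

/-- The value at a real point. -/
noncomputable def ev (v : ℕ → ℝ) : Ex → ℝ
  | num k => k
  | var i => v i
  | add a b => ev v a + ev v b
  | sub a b => ev v a - ev v b
  | mul a b => ev v a * ev v b
  | pow a n => ev v a ^ n

/-- A bound of the degree in one variable. -/
def deg (i : ℕ) : Ex → ℕ
  | num _ => 0
  | var j => if i = j then 1 else 0
  | add a b => max (deg i a) (deg i b)
  | sub a b => max (deg i a) (deg i b)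
  | mul a b => deg i a + deg i b
  | pow a n => n * deg i a

/-- All variables have an index below `n`. -/
def varsLt (n : ℕ) : Ex → Bool
  | num _ => true
  | var j => Nat.blt j n
  | add a b => varsLt n a && varsLt n b
  | sub a b => varsLt n a && varsLt n b
  | mul a b => varsLt n a && varsLt n b
  | pow a _ => varsLt n a

/-- A bound of the sum of the absolute values of the coefficients. -/
def maj : Ex → ℕ
  | num k => k.natAbs
  | var _ => 1
  | add a b => maj a + maj b
  | sub a b => maj a + maj b
  | mul a b => maj a * maj b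
  | pow a n => maj a ^ n

/-- Evaluation at `x i = 2 ^ (B * W i)`. -/
def evZ (B : ℕ) (W : List ℕ) : Ex → ℤ
  | num k => k
  | var i => Int.ofNat (2 ^ (B * W.getD i 0))
  | add a b => Int.add (evZ B W a) (evZ B W b)
  | sub a b => Int.sub (evZ B W a) (evZ B W b)
  | mul a b => Int.mul (evZ B W a) (evZ B W b)
  | pow a n => evZ B W a ^ n

/-- Coefficients with exponents; used in proofs only. -/
def terms : Ex → List (ℤ × (ℕ → ℕ))
  | num k => [(k, fun _ => 0)]
  | var i => [(1, fun j => if j = i then 1 else 0)]
  | add a b => terms a ++ terms b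
  | sub a b => terms a ++ (terms b).map fun t => (-t.1, t.2)
  | mul a b => (terms a).flatMap fun s => (terms b).map fun t => (s.1 * t.1, s.2 + t.2)
  | pow a n => n.rec [(1, fun _ => 0)] fun _ ih =>
      (terms a).flatMap fun s => ih.map fun t => (s.1 * t.1, s.2 + t.2)

end Ex

variable {R : Type} [CommRing R]

/-- The value of a list of terms. -/
def tval (n : ℕ) (v : ℕ → R) (l : List (ℤ × (ℕ → ℕ))) : R :=
  (l.map fun t => (t.1 : R) * ∏ i ∈ range n, v i ^ t.2 i).sum

theorem tval_append (n : ℕ) (v : ℕ → R) (l m : List (ℤ × (ℕ → ℕ))) :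
    tval n v (l ++ m) = tval n v l + tval n v m := by
  simp [tval]

theorem tval_neg (n : ℕ) (v : ℕ → R) : ∀ l : List (ℤ × (ℕ → ℕ)),
    tval n v (l.map fun t => (-t.1, t.2)) = -tval n v l
  | [] => by simp [tval]
  | t :: l => by
    have := tval_neg n v l
    simp only [tval, List.map_cons, List.sum_cons] at this ⊢
    rw [this]; push_cast; ring

theorem tval_shift (n : ℕ) (v : ℕ → R) (s : ℤ × (ℕ → ℕ)) : ∀ l : List (ℤ × (ℕ → ℕ)),
    tval n v (l.map fun t => (s.1 * t.1, s.2 + t.2)) =
      ((s.1 : R) * ∏ i ∈ range n, v i ^ s.2 i) * tval n v l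
  | [] => by simp [tval]
  | t :: l => by
    have := tval_shift n v s l
    simp only [tval, List.map_cons, List.sum_cons] at this ⊢
    rw [this, mul_add]
    simp only [Pi.add_apply, pow_add, prod_mul_distrib]
    push_cast; ring

theorem tval_mul (n : ℕ) (v : ℕ → R) : ∀ l m : List (ℤ × (ℕ → ℕ)),
    tval n v (l.flatMap fun s => m.map fun t => (s.1 * t.1, s.2 + t.2)) =
      tval n v l * tval n v m
  | [], m => by simp [tval]
  | s :: l, m => by
    rw [List.flatMap_cons, tval_append, tval_shift, tval_mul n v l m]
    simp only [tval, List.map_cons, List.sum_cons]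
    ring

/-- The value of an expression in a ring. -/
def evR (v : ℕ → R) : Ex → R
  | .num k => k
  | .var i => v i
  | .add a b => evR v a + evR v b
  | .sub a b => evR v a - evR v b
  | .mul a b => evR v a * evR v b
  | .pow a n => evR v a ^ n

theorem tval_terms {n : ℕ} (v : ℕ → R) :
    ∀ e : Ex, e.varsLt n = true → tval n v e.terms = evR v e
  | .num k, _ => by simp [Ex.terms, tval, evR]
  | .var i, h => by
    have hi : i < n := Nat.le_of_ble_eq_true h
    simp [Ex.terms, tval, evR, prod_ite_eq', hi]
  | .add a b, h => by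
    simp only [Ex.varsLt, Bool.and_eq_true] at h
    rw [Ex.terms, tval_append, tval_terms v a h.1, tval_terms v b h.2, evR]
  | .sub a b, h => by
    simp only [Ex.varsLt, Bool.and_eq_true] at h
    rw [Ex.terms, tval_append, tval_neg, tval_terms v a h.1, tval_terms v b h.2, evR]
    ring
  | .mul a b, h => by
    simp only [Ex.varsLt, Bool.and_eq_true] at h
    rw [Ex.terms, tval_mul, tval_terms v a h.1, tval_terms v b h.2, evR]
  | .pow a k, h => by
    induction k with
    | zero => simp [Ex.terms, tval, evR]
    | succ k ih =>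
      have e : (Ex.pow a (k + 1)).terms =
          a.terms.flatMap fun s => (Ex.pow a k).terms.map fun t => (s.1 * t.1, s.2 + t.2) := rfl
      rw [e, tval_mul, tval_terms v a h, ih h, evR, evR, pow_succ']

theorem evR_real (v : ℕ → ℝ) : ∀ e : Ex, evR v e = e.ev v
  | .num _ | .var _ => rfl
  | .add a b | .sub a b | .mul a b => by rw [evR, Ex.ev, evR_real v a, evR_real v b]
  | .pow a _ => by rw [evR, Ex.ev, evR_real v a]

theorem evR_int (B : ℕ) (W : List ℕ) :
    ∀ e : Ex, evR (fun i => (2 : ℤ) ^ (B * W.getD i 0)) e = e.evZ B W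
  | .num _ => rfl
  | .var i => by simp [evR, Ex.evZ]
  | .add a b | .sub a b | .mul a b => by
    rw [evR, Ex.evZ, evR_int B W a, evR_int B W b]; rfl
  | .pow a _ => by rw [evR, Ex.evZ, evR_int B W a]

/-- The sum of the absolute values in a list of terms. -/
def asum (l : List (ℤ × (ℕ → ℕ))) : ℕ := (l.map fun t => t.1.natAbs).sum

theorem asum_mul : ∀ l m : List (ℤ × (ℕ → ℕ)),
    asum (l.flatMap fun s => m.map fun t => (s.1 * t.1, s.2 + t.2)) = asum l * asum m
  | [], m => by simp [asum]
  | s :: l, m => by
    have := asum_mul l m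
    simp only [asum, List.flatMap_cons, List.map_append, List.sum_append, List.map_cons,
      List.sum_cons, List.map_map, Function.comp_def, Int.natAbs_mul,
      List.sum_map_mul_left] at this ⊢
    rw [this]; ring

theorem asum_le : ∀ e : Ex, asum e.terms ≤ e.maj
  | .num k => by simp [Ex.terms, asum, Ex.maj]
  | .var i => by simp [Ex.terms, asum, Ex.maj]
  | .add a b => by
    have := asum_le a; have := asum_le b
    simp only [Ex.terms, asum, Ex.maj, List.map_append, List.sum_append] at *
    omega
  | .sub a b => by
    have := asum_le a; have := asum_le b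
    simp only [Ex.terms, asum, Ex.maj, List.map_append, List.sum_append, List.map_map,
      Function.comp_def, Int.natAbs_neg] at *
    omega
  | .mul a b => by
    rw [Ex.terms, asum_mul, Ex.maj]
    exact Nat.mul_le_mul (asum_le a) (asum_le b)
  | .pow a k => by
    induction k with
    | zero => simp [Ex.terms, asum, Ex.maj]
    | succ k ih =>
      have e : (Ex.pow a (k + 1)).terms =
          a.terms.flatMap fun s => (Ex.pow a k).terms.map fun t => (s.1 * t.1, s.2 + t.2) := rfl
      rw [e, asum_mul, Ex.maj, pow_succ']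
      exact Nat.mul_le_mul (asum_le a) ih

theorem deg_le (i : ℕ) : ∀ e : Ex, ∀ t ∈ e.terms, t.2 i ≤ e.deg i
  | .num k => by simp [Ex.terms, Ex.deg]
  | .var j => by simp [Ex.terms, Ex.deg]
  | .add a b => fun t ht => by
    rcases List.mem_append.1 ht with h | h
    · exact (deg_le i a t h).trans (le_max_left _ _)
    · exact (deg_le i b t h).trans (le_max_right _ _)
  | .sub a b => fun t ht => by
    rcases List.mem_append.1 ht with h | h
    · exact (deg_le i a t h).trans (le_max_left _ _)
    · obtain ⟨s, hs, rfl⟩ := List.mem_map.1 h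
      exact (deg_le i b s hs).trans (le_max_right _ _)
  | .mul a b => fun t ht => by
    obtain ⟨s, hs, ht⟩ := List.mem_flatMap.1 ht
    obtain ⟨u, hu, rfl⟩ := List.mem_map.1 ht
    exact Nat.add_le_add (deg_le i a s hs) (deg_le i b u hu)
  | .pow a k => by
    induction k with
    | zero => simp [Ex.terms, Ex.deg]
    | succ k ih =>
      intro t ht
      have e : (Ex.pow a (k + 1)).terms =
          a.terms.flatMap fun s => (Ex.pow a k).terms.map fun t => (s.1 * t.1, s.2 + t.2) := rfl
      rw [e] at ht
      obtain ⟨s, hs, ht⟩ := List.mem_flatMap.1 ht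
      obtain ⟨u, hu, rfl⟩ := List.mem_map.1 ht
      have h1 := deg_le i a s hs
      have h2 := ih u hu
      simp only [Ex.deg, Pi.add_apply] at h2 ⊢
      rw [Nat.succ_mul]
      omega

/-- Mixed radix weights for the given sizes. -/
def weights : List ℕ → List ℕ
  | [] => []
  | s :: rest => 1 :: (weights rest).map (s * ·)

/-- The block number of an exponent. -/
def key : List ℕ → (ℕ → ℕ) → ℕ
  | [], _ => 0
  | s :: rest, e => e 0 + s * key rest fun i => e (i + 1)

theorem key_eq : ∀ (ss : List ℕ) (e : ℕ → ℕ),
    key ss e = ∑ i ∈ range ss.length, (weights ss).getD i 0 * e i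
  | [], _ => by simp [key]
  | s :: rest, e => by
    rw [key, List.length_cons, sum_range_succ', key_eq rest, weights, mul_sum]
    simp only [List.getD_cons_zero, one_mul, List.getD_cons_succ, add_comm _ (e 0)]
    refine congrArg _ (sum_congr rfl fun i _ => ?_)
    rw [← mul_assoc]
    congr 1
    rcases lt_or_ge i (weights rest).length with h | h
    · simp [List.getD_eq_getElem?_getD, h]
    · simp [List.getD_eq_getElem?_getD, h]

theorem key_lt : ∀ (ss : List ℕ) (e : ℕ → ℕ), (∀ i < ss.length, e i < ss.getD i 0) →
    key ss e < ss.prod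
  | [], _, _ => by simp [key]
  | s :: rest, e, h => by
    have h0 : e 0 < s := by simpa using h 0 (by simp)
    have h1 := key_lt rest (fun i => e (i + 1)) fun i hi => by
      simpa using h (i + 1) (by simpa using hi)
    rw [key, List.prod_cons]
    calc e 0 + s * key rest (fun i => e (i + 1)) < s * (key rest (fun i => e (i + 1)) + 1) := by
          rw [mul_add, mul_one]; omega
      _ ≤ s * rest.prod := Nat.mul_le_mul_left _ h1

theorem key_inj : ∀ (ss : List ℕ) (e e' : ℕ → ℕ), (∀ i < ss.length, e i < ss.getD i 0) →
    (∀ i < ss.length, e' i < ss.getD i 0) → key ss e = key ss e' → ∀ i < ss.length, e i = e' i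
  | [], _, _, _, _, _ => by simp
  | s :: rest, e, e', h, h', he => by
    have h0 : e 0 < s := by simpa using h 0 (by simp)
    have h0' : e' 0 < s := by simpa using h' 0 (by simp)
    have hs : 0 < s := by omega
    rw [key, key] at he
    have e0 : e 0 = e' 0 := by
      have := congrArg (· % s) he
      simpa [Nat.add_mul_mod_self_left, Nat.mod_eq_of_lt h0, Nat.mod_eq_of_lt h0'] using this
    have e1 : key rest (fun i => e (i + 1)) = key rest fun i => e' (i + 1) := by
      rw [e0] at he
      exact Nat.eq_of_mul_eq_mul_left hs (Nat.add_left_cancel he)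
    intro i hi
    rcases i with _ | i
    · exact e0
    · exact key_inj rest _ _ (fun j hj => by simpa using h (j + 1) (by simpa using hj))
        (fun j hj => by simpa using h' (j + 1) (by simpa using hj)) e1 i (by simpa using hi)

/-- The top bit of each of `J` blocks of `B` bits. -/
def mask (B J : ℕ) : ℕ := 2 ^ (B - 1) * ((2 ^ (B * J) - 1) / (2 ^ B - 1))

theorem mask_succ {B : ℕ} (hB : 0 < B) (J : ℕ) :
    mask B (J + 1) = 2 ^ (B - 1) + 2 ^ B * mask B J := by
  have hX : 1 < 2 ^ B := Nat.one_lt_two_pow hB.ne'
  have h : ∀ m, (2 ^ (B * m) - 1) / (2 ^ B - 1) = ∑ i ∈ range m, (2 ^ B) ^ i := fun m => by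
    rw [Nat.geomSum_eq hX, pow_mul]
  rw [mask, mask, h, h, sum_range_succ']
  simp only [pow_succ', ← mul_sum, pow_zero]
  ring

theorem nonneg_of_mask {B : ℕ} (hB : 0 < B) : ∀ (J : ℕ) (c : ℕ → ℤ),
    (∀ j < J, |c j| < 2 ^ (B - 1)) → ∀ V : ℕ, (V : ℤ) = ∑ j ∈ range J, c j * (2 ^ B) ^ j →
      Nat.land V (mask B J) = 0 → ∀ j < J, 0 ≤ c j
  | 0, _, _, _, _, _ => by simp
  | J + 1, c, hc, V, hV, hm => by
    rw [sum_range_succ'] at hV
    simp only [pow_succ', pow_zero, mul_one] at hV
    set V' := ∑ j ∈ range J, c (j + 1) * (2 ^ B : ℤ) ^ j with hV'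
    have hV2 : (V : ℤ) = c 0 + 2 ^ B * V' := by
      rw [hV, hV', mul_sum, add_comm]
      exact congrArg _ (sum_congr rfl fun j _ => by ring)
    have hX : (2 : ℤ) ^ B = 2 * 2 ^ (B - 1) := by rw [← pow_succ', Nat.sub_add_cancel hB]
    have hXn : 2 ^ B = 2 * 2 ^ (B - 1) := by rw [← pow_succ', Nat.sub_add_cancel hB]
    have h0 := abs_lt.1 (hc 0 (by omega))
    have hm0 : mask B (J + 1) % 2 ^ B = 2 ^ (B - 1) ∧ mask B (J + 1) / 2 ^ B = mask B J := by
      have hlt : 2 ^ (B - 1) < 2 ^ B := Nat.pow_lt_pow_right (by norm_num) (by omega)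
      rw [mask_succ hB]
      refine ⟨by rw [Nat.add_mul_mod_self_left, Nat.mod_eq_of_lt hlt], ?_⟩
      rw [Nat.add_mul_div_left _ _ (by positivity), Nat.div_eq_of_lt hlt, zero_add]
    rw [Nat.land_eq] at hm
    have hc0 : 0 ≤ c 0 := by
      by_contra hn
      push Not at hn
      have hmod : ((V % 2 ^ B : ℕ) : ℤ) = 2 ^ B + c 0 := by
        push_cast
        rw [hV2, Int.add_mul_emod_self_left, Int.emod_eq_add_self_emod,
          Int.emod_eq_of_lt (by linarith) (by linarith), add_comm]
      have h1z : (2 : ℤ) ^ (B - 1) ≤ ((V % 2 ^ B : ℕ) : ℤ) := by linarith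
      have h1 : 2 ^ (B - 1) ≤ V % 2 ^ B := by exact_mod_cast h1z
      have h2 := congrArg (· % 2 ^ B) hm
      simp only [Nat.and_mod_two_pow, hm0.1, Nat.zero_mod, Nat.and_two_pow] at h2
      have h3 : (V % 2 ^ B).testBit (B - 1) = true := by
        rw [Nat.testBit_eq_decide_div_mod_eq,
          show V % 2 ^ B / 2 ^ (B - 1) = 1 from
            Nat.div_eq_of_lt_le (by linarith) (by
              have := Nat.mod_lt V (show 0 < 2 ^ B by positivity)
              omega)]
        rfl
      rw [h3] at h2
      simp at h2
    have hV'0 : 0 ≤ V' := by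
      by_contra hn
      push Not at hn
      have h1 : (2 : ℤ) ^ B * V' ≤ 2 ^ B * (-1) :=
        mul_le_mul_of_nonneg_left (by omega) (by positivity)
      have h2 : (0 : ℤ) ≤ V := Int.natCast_nonneg V
      linarith
    have hdiv : ((V / 2 ^ B : ℕ) : ℤ) = V' := by
      push_cast
      rw [hV2, Int.add_mul_ediv_left _ _ (by positivity),
        Int.ediv_eq_zero_of_lt hc0 (by linarith), zero_add]
    have hm' : Nat.land (V / 2 ^ B) (mask B J) = 0 := by
      rw [Nat.land_eq, ← hm0.2, ← Nat.and_div_two_pow, hm, Nat.zero_div]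
    intro j hj
    rcases j with _ | j
    · exact hc0
    · exact nonneg_of_mask hB J (fun i => c (i + 1)) (fun i hi => hc _ (by omega)) _ hdiv hm' j
        (by omega)

/-- The sizes of the exponent box. -/
def sizes (n : ℕ) (e : Ex) : List ℕ := (List.range n).map fun i => e.deg i + 1

/-- The number of bits of a block. -/
def bits (e : Ex) : ℕ := Nat.log2 e.maj + 2

/-- All coefficients of the expansion are nonnegative. -/
def check (n : ℕ) (e : Ex) : Bool :=
  e.varsLt n &&
    match e.evZ (bits e) (weights (sizes n e)) with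
    | Int.ofNat V => Nat.beq (Nat.land V (mask (bits e) (sizes n e).prod)) 0
    | Int.negSucc _ => false

/-- A checked expression is nonnegative at nonnegative values of its variables. -/
theorem nonneg_of_check {n : ℕ} {e : Ex} (h : check n e = true) {v : ℕ → ℝ}
    (hv : ∀ i < n, 0 ≤ v i) : 0 ≤ e.ev v := by
  classical
  simp only [check, Bool.and_eq_true] at h
  obtain ⟨hb, h⟩ := h
  set ss := sizes n e with hss
  set B := bits e with hBdef
  have hlen : ss.length = n := by simp [hss, sizes]
  have hsz : ∀ i < n, ss.getD i 0 = e.deg i + 1 := fun i hi => by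
    simp [hss, sizes, List.getD_eq_getElem?_getD, hi]
  have hexp : ∀ t ∈ e.terms, ∀ i < ss.length, t.2 i < ss.getD i 0 := fun t ht i hi => by
    rw [hsz i (hlen ▸ hi)]
    exact Nat.lt_succ_of_le (deg_le i e t ht)
  split at h
  case h_2 => exact absurd h (by simp)
  case h_1 V hV =>
    set J := ss.prod with hJ
    let c : ℕ → ℤ := fun j => (e.terms.map fun t => if key ss t.2 = j then t.1 else 0).sum
    have habs : ∀ j, |c j| ≤ (asum e.terms : ℤ) := fun j => by
      have : ∀ l : List (ℤ × (ℕ → ℕ)),
          |(l.map fun t => if key ss t.2 = j then t.1 else 0).sum| ≤ (asum l : ℤ) := by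
        intro l
        induction l with
        | nil => simp [asum]
        | cons t l ih =>
          simp only [asum, List.map_cons, List.sum_cons, Nat.cast_add] at ih ⊢
          refine (abs_add_le _ _).trans (add_le_add ?_ ih)
          split <;> simp
      exact this _
    have hsum : (V : ℤ) = ∑ j ∈ range J, c j * (2 ^ B) ^ j := by
      rw [show (V : ℤ) = Int.ofNat V from rfl, ← hV, ← evR_int, ← tval_terms _ e hb]
      have : ∀ l : List (ℤ × (ℕ → ℕ)), (∀ t ∈ l, ∀ i < ss.length, t.2 i < ss.getD i 0) →
          tval n (fun i => (2 : ℤ) ^ (B * (weights ss).getD i 0)) l =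
            ∑ j ∈ range J, (l.map fun t => if key ss t.2 = j then t.1 else 0).sum * (2 ^ B) ^ j := by
        intro l hl
        induction l with
        | nil => simp [tval]
        | cons t l ih =>
          have hk : key ss t.2 ∈ range J := mem_range.2 (key_lt ss t.2 (hl t (by simp)))
          have e1 := ih fun s hs => hl s (List.mem_cons_of_mem _ hs)
          simp only [tval, List.map_cons, List.sum_cons] at e1 ⊢
          rw [e1]
          simp only [add_mul, sum_add_distrib, ite_mul, zero_mul, sum_ite_eq, if_pos hk]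
          congr 1
          simp only [← pow_mul, prod_pow_eq_pow_sum, Int.cast_id]
          rw [key_eq, hlen, mul_sum]
          exact congrArg _ (congrArg _ (sum_congr rfl fun i _ => by ring))
      exact this _ hexp
    have hB : 0 < B := by simp [hBdef, bits]
    have hsmall : ∀ j < J, |c j| < 2 ^ (B - 1) := fun j _ => by
      refine (habs j).trans_lt ?_
      have h1 : e.maj < 2 ^ (B - 1) := by
        rw [hBdef, bits]
        exact Nat.lt_log2_self
      have h2 := asum_le e
      exact_mod_cast lt_of_le_of_lt h2 h1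
    have hc := nonneg_of_mask hB J c hsmall V hsum (Nat.eq_of_beq_eq_true h)
    rw [← evR_real, ← tval_terms v e hb]
    have hgroup : tval n v e.terms = ∑ j ∈ range J, (e.terms.map fun t =>
        if key ss t.2 = j then (t.1 : ℝ) * ∏ i ∈ range n, v i ^ t.2 i else 0).sum := by
      have : ∀ l : List (ℤ × (ℕ → ℕ)), (∀ t ∈ l, key ss t.2 < J) → tval n v l =
          ∑ j ∈ range J, (l.map fun t =>
            if key ss t.2 = j then (t.1 : ℝ) * ∏ i ∈ range n, v i ^ t.2 i else 0).sum := by
        intro l hl
        induction l with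
        | nil => simp [tval]
        | cons t l ih =>
          have e1 := ih fun s hs => hl s (List.mem_cons_of_mem _ hs)
          simp only [tval, List.map_cons, List.sum_cons] at e1 ⊢
          rw [e1, sum_add_distrib, sum_ite_eq, if_pos (mem_range.2 (hl t (by simp)))]
      exact this _ fun t ht => key_lt ss t.2 (hexp t ht)
    rw [hgroup]
    refine sum_nonneg fun j hj => ?_
    by_cases hex : ∃ s ∈ e.terms, key ss s.2 = j
    · obtain ⟨s, hs, hsj⟩ := hex
      have e2 : (e.terms.map fun t =>
          if key ss t.2 = j then (t.1 : ℝ) * ∏ i ∈ range n, v i ^ t.2 i else 0) =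
          e.terms.map fun t => (if key ss t.2 = j then (t.1 : ℝ) else 0) *
            ∏ i ∈ range n, v i ^ s.2 i := by
        refine List.map_congr_left fun t ht => ?_
        split
        · next ht' =>
          congr 1
          refine prod_congr rfl fun i hi => ?_
          rw [key_inj ss t.2 s.2 (hexp t ht) (hexp s hs) (ht'.trans hsj.symm) i
            (hlen.symm ▸ mem_range.1 hi)]
        · simp
      rw [e2, List.sum_map_mul_right]
      refine mul_nonneg ?_ (prod_nonneg fun i hi => pow_nonneg (hv i (mem_range.1 hi)) _)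
      have := hc j (mem_range.1 hj)
      calc (0 : ℝ) ≤ ((c j : ℤ) : ℝ) := by exact_mod_cast this
        _ = _ := by simp [c, List.map_map, Function.comp_def, Int.cast_list_sum, apply_ite]
    · push Not at hex
      refine le_of_eq (List.sum_eq_zero ?_).symm
      intro x hx
      obtain ⟨t, ht, rfl⟩ := List.mem_map.1 hx
      simp [hex t ht]

end Vale.Agent.P100.Kron
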