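import Vale.Agent.P100.OrbitCert.Point

/-!
# P100: the normal form of the inequalities for the final closed-form rule

Variables `S = α + β`, `f = α/S`, `x = ξ/S`, `z = ζ`, `w = w₁`. The rule is `d = 4 f g`,
`w = f + ε g + ε y` with `g = 1 - f`, `ε = f - g`, `y = 1 - x`. The condition
`w₁ L² ≤ 4 n₀ π₀` becomes `0 ≤ cE`.
-/

namespace Vale.Agent.P100.Ineq

open OrbitCert

noncomputable section

/-- `ε`. -/
def cEps (f : ℝ) : ℝ := 2 * f - 1

/-- `h = g + y`. -/
def cH (f x : ℝ) : ℝ := 1 - f + (1 - x)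

/-- `v = w - w₁`. -/
def cV (f x w : ℝ) : ℝ := f - w + cEps f * cH f x

/-- `q = u (1 + 2 h)`. -/
def cQ (f x z w : ℝ) : ℝ := (w - z) * (1 + 2 * cH f x)

/-- `Λ = -w₁ L / ε`. -/
def cLam (S f x z w : ℝ) : ℝ :=
  S * ((f - w) * (z + (w - z) * (1 - x)) + 2 * w * cH f x * (w + z - 1 + (f - w)))
    + 2 * (w * (2 * (w + z - 1) * (1 - f) + (1 - x) * (w + z - 1 - (w - z))) - (f - w) * (w - z))

/-- `4 N (1 + e) π₀ / ε`. -/
def cPP (S f x z w : ℝ) : ℝ :=
  4 * S * (S + 2) * (w + z) * cH f x * (f * (w + z - 1) + (f - w))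
    + cEps f * (w + z) ^ 2 * (4 * (1 - f) * S - cEps f ^ 2)
    + 2 * cEps f * (w + z) * cQ f x z w * (S + cEps f)
    - cEps f * (S + 1) ^ 2 * cQ f x z w ^ 2

/-- The expression to be positive. -/
def cE (S f x z w : ℝ) : ℝ :=
  (w + z - 1) * cV f x w * w * cPP S f x z w - cEps f * (w + z) * cLam S f x z w ^ 2

/-- `Λ` without its leading part `2 S w h e`. -/
def cLam' (S f x z w : ℝ) : ℝ :=
  2 * w * ((w + z - 1) * (2 * (1 - f) + (1 - x)) - (1 - x) * (w - z))
    + (f - w) * (S * (z + (w - z) * (1 - x) + 2 * w * cH f x) - 2 * (w - z))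

/-- The positive main term, divided by `4 a S e w`. -/
def cPsi (S f x z w : ℝ) : ℝ :=
  cEps f * cH f x * ((1 - f) * (w - z + 2 * (f - w))
      + (w - z) * (cEps f * (1 + 2 * cH f x) / 2 + 2 * f * (1 - x)))
    + (f - w) * (2 * cH f x * (cEps f * cH f x + f * (w + z - 1) + (f - w))
      + cEps f * (1 - f) * (w + z) + cEps f * cQ f x z w / 2
      + 2 * cEps f * cH f x * x * (w - z)
      + 2 * cEps f * cH f x * (w + z - 1) * (2 * (1 - f) + (1 - x)))
    - 2 * S * (f - w) * cH f x * (w - z) * (f * (1 - f) + cEps f * (1 - x))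

/-- The orders in `S` made visible. -/
theorem cE_eq (S f x z w : ℝ) :
    cE S f x z w = 4 * (w + z) * S * (w + z - 1) * w * cPsi S f x z w
      - cEps f * (w + z) * cLam' S f x z w ^ 2
      - cEps f * (w + z - 1) * cV f x w * w
        * ((cEps f * (w + z) - cQ f x z w) ^ 2 + S * (S + 2) * cQ f x z w ^ 2) := by
  simp only [cE, cPP, cLam, cLam', cPsi, cQ, cV, cH, cEps]
  ring

/-- The point of the orbit with the final rule. -/
def certPoint (S f x z w : ℝ) : Point where
  α := S * f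
  β := S * (1 - f)
  d := 4 * f * (1 - f)
  ξ := S * x
  ζ := z
  w₁ := w
  w := f + cEps f * (1 - f) + cEps f * (1 - x)
  Dw := -(cEps f / S) * (2 + S * x * (1 - (S + 2) * w / (S * f)))

variable {S f x z w : ℝ}

theorem certPoint_v (S f x z w : ℝ) : (certPoint S f x z w).v = cV f x w := by
  simp only [Point.v, certPoint, cV, cH]
  ring

theorem certPoint_e (S f x z w : ℝ) : (certPoint S f x z w).e = w + z - 1 := rfl

theorem certPoint_dim (S f x z w : ℝ) : (certPoint S f x z w).dim = S + 2 := by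
  simp only [Point.dim, certPoint]
  ring

theorem certPoint_L (hS : S ≠ 0) (hf : f ≠ 0) (hw : w ≠ 0) :
    w * (certPoint S f x z w).L = -(cEps f * cLam S f x z w) := by
  simp only [Point.L, Point.l, Point.k, Point.v, Point.e, certPoint, cLam, cH, cEps]
  field_simp
  ring

theorem certPoint_pi (hN : S + 2 ≠ 0) (ha : w + z ≠ 0) :
    4 * (S + 2) * (w + z) * (certPoint S f x z w).π₀ = cEps f * cPP S f x z w := by
  simp only [Point.π₀, Point.aux, Point.e, Point.M, Point.dim, certPoint, cPP, cQ, cH, cEps]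
  rw [show 1 + (w + z - 1) = w + z by ring, show S * f + S * (1 - f) + 2 = S + 2 by ring]
  field_simp
  ring

/-- Condition (ii) in normal form. -/
theorem certPoint_gap (hS : S ≠ 0) (hf : f ≠ 0) (hw : w ≠ 0) (hN : S + 2 ≠ 0) (ha : w + z ≠ 0) :
    (w + z) * (4 * (certPoint S f x z w).n₀ * (certPoint S f x z w).π₀
        - w * (certPoint S f x z w).L ^ 2) = cEps f * cE S f x z w / w := by
  have h1 := certPoint_L (x := x) (z := z) hS hf hw
  have h2 := certPoint_pi (f := f) (x := x) hN ha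
  rw [eq_div_iff hw]
  simp only [Point.n₀, certPoint_v, certPoint_e, certPoint_dim, cE]
  linear_combination ((w + z - 1) * cV f x w * w) * h2
    - (w + z) * (w * (certPoint S f x z w).L - cEps f * cLam S f x z w) * h1

end

end Vale.Agent.P100.Ineq
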