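import Vale.Agent.P100.Ineq.Kron
import Vale.Agent.P100.Orbit.Region

/-!
# P100: sign lemma for the upper barrier on `ζ`

On `U > 0`, `U ^ 2 = 6 (1 - x) + 6 g ^ 3` (`U = N z - f S`, `g = 1 - f`) the barrier is crossed
inwards: `2 U N (P - x Pm₁) + 6 x (2 (1 - x) + x N r / f) < 0`, for `S ≥ 3` and `f ≥ 3/5`.
The proof eliminates `r` by the monotonicity of `w₁`, bounds `x ≤ 1` and leaves a polynomial in
`(S, g, U)`, nonnegative by six coefficient checks.
-/

namespace Vale.Agent.P100.R4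

open Kron Kron.Ex

/-- The polynomial left after elimination. -/
noncomputable def poly (S g U : ℝ) : ℝ :=
  12 * ((1 - g) * S + 2 * U - 2) * U ^ 2 * ((1 - 2 * g) * S - 2 * g + U)
    - (U ^ 2 - 6 * g ^ 3) *
      (((1 - g) * S + 2 * U - 2) * (2 * U * (2 + g * S - U) * (2 * (1 - g) - U) + 12 * (1 - g))
        + (2 * U * (2 + g * S - U) + 6) * (1 - g) * (2 * (2 + g * S) - (S + 4) * U))

/-- `(gd * ud) ^ 6 * poly S (gn / gd) (un / ud)` without denominators. -/
def hpoly (S gn gd un ud : Ex) : Ex :=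
  let f := sub gd gn
  let a := add (mul (num 2) gd) (mul gn S)
  let au := sub (mul a ud) (mul un gd)
  let q := add (mul (sub (mul f S) (mul (num 2) gd)) ud) (mul (num 2) (mul un gd))
  let m := add (mul (sub (mul (sub gd (mul (num 2) gn)) S) (mul (num 2) gn)) ud) (mul un gd)
  let c₁ := add (mul (mul (num 2) un) (mul au (sub (mul (num 2) (mul f ud)) (mul un gd))))
    (mul (num 12) (mul f (mul gd (pow ud 3))))
  let c₂ := add (mul (mul (num 2) un) au) (mul (num 6) (mul gd (pow ud 2)))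
  let p := sub (mul (num 2) (mul a ud)) (mul (add S (num 4)) (mul un gd))
  sub (mul (mul (num 12) (mul q (mul (pow un 2) m))) (mul (pow gd 4) (pow ud 2)))
    (mul (sub (mul (pow un 2) (pow gd 3)) (mul (num 6) (mul (pow gn 3) (pow ud 2))))
      (add (mul q c₁) (mul (mul c₂ (mul f p)) ud)))

theorem hpoly_ev (v : ℕ → ℝ) (S gn gd un ud : Ex) (hg : gd.ev v ≠ 0) (hu : ud.ev v ≠ 0) :
    (hpoly S gn gd un ud).ev v =
      (gd.ev v * ud.ev v) ^ 6 * poly (S.ev v) (gn.ev v / gd.ev v) (un.ev v / ud.ev v) := by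
  simp only [hpoly, Ex.ev, poly]
  push_cast
  field_simp
  ring

theorem poly_nonneg_of_check {S gn gd un ud : Ex} (h : check 3 (hpoly S gn gd un ud) = true)
    (v : ℕ → ℝ) (hv : ∀ i < 3, 0 ≤ v i) (hg : 0 < gd.ev v) (hu : 0 < ud.ev v) :
    0 ≤ poly (S.ev v) (gn.ev v / gd.ev v) (un.ev v / ud.ev v) := by
  have := nonneg_of_check h hv
  rw [hpoly_ev v S gn gd un ud hg.ne' hu.ne'] at this
  exact (mul_nonneg_iff_of_pos_left (by positivity)).1 this

def sE : Ex := add (num 3) (var 0)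
def oneA : Ex := add (num 1) (var 1)
def oneT : Ex := add (num 1) (var 2)

def vv (s a t : ℝ) : ℕ → ℝ := fun i => if i = 0 then s else if i = 1 then a else t

theorem vv_nonneg {s a t : ℝ} (hs : 0 ≤ s) (ha : 0 ≤ a) (ht : 0 ≤ t) :
    ∀ i < 3, 0 ≤ vv s a t i := fun i _ => by
  unfold vv; split_ifs <;> assumption

/-- A number in `(l, u]` as a weighted mean. -/
theorem exists_mean {x l u : ℝ} (h₁ : l < x) (h₂ : x ≤ u) :
    ∃ t : ℝ, 0 ≤ t ∧ x = (u + l * t) / (1 + t) := by
  have hx : x - l ≠ 0 := (sub_pos.2 h₁).ne'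
  have ht : 0 ≤ (u - x) / (x - l) := div_nonneg (by linarith) (by linarith)
  refine ⟨_, ht, ?_⟩
  rw [eq_div_iff (by linarith)]
  field_simp
  ring

/-- Box `g ∈ [1/10, 2/5]`, `U / U_max ∈ [l / k, u / k]`. -/
def boxG (l u k : ℤ) : Ex :=
  let gn := add (num 4) (var 1)
  let gd := mul (num 10) oneA
  hpoly sE gn gd (mul (mul (num 2) (add (mul (num 2) gd) (mul gn sE))) (add (num u) (mul (num l) (var 2))))
    (mul (mul (add sE (num 4)) gd) (mul (num k) oneT))

/-- Chart `U = k g`, `g ∈ [0, 1/10]`, `k ∈ [l, u]`. -/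
def boxK (l u : ℤ) : Ex :=
  let gd := mul (num 10) oneA
  hpoly sE (num 1) gd (add (num u) (mul (num l) (var 2))) (mul gd oneT)

/-- Chart `g = j U`, `U ∈ [0, 1]`, `j ∈ [0, 1/4]`. -/
def boxJ : Ex :=
  hpoly sE (num 1) (mul (mul (num 4) oneA) oneT) (num 1) oneT

theorem check_G1 : check 3 (boxG 0 1 4) = true := by decide +kernel
theorem check_G2 : check 3 (boxG 1 2 4) = true := by decide +kernel
theorem check_G3 : check 3 (boxG 2 4 4) = true := by decide +kernel
theorem check_K1 : check 3 (boxK 0 2) = true := by decide +kernel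
theorem check_K2 : check 3 (boxK 2 4) = true := by decide +kernel
theorem check_J : check 3 boxJ = true := by decide +kernel

theorem le_poly {S g U S' g' U' : ℝ} (h : 0 ≤ poly S' g' U') (h₁ : S' = S) (h₂ : g' = g)
    (h₃ : U' = U) : 0 ≤ poly S g U := by subst h₁ h₂ h₃; exact h

theorem nonneg_boxG {S g U : ℝ} {l u k : ℤ} (hc : check 3 (boxG l u k) = true) (hS : 3 ≤ S)
    (hg : 1 / 10 < g) (hg' : g ≤ 2 / 5) (hk : (0 : ℝ) < k)
    (h₁ : (l : ℝ) / k < (S + 4) * U / (2 * (2 + g * S)))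
    (h₂ : (S + 4) * U / (2 * (2 + g * S)) ≤ (u : ℝ) / k) : 0 ≤ poly S g U := by
  obtain ⟨a, ha, hga⟩ := exists_mean hg hg'
  obtain ⟨t, ht, htu⟩ := exists_mean h₁ h₂
  have hS0 : 0 < S + 4 := by linarith
  have hA : 0 < 2 + g * S := by
    have : 0 ≤ g * S := mul_nonneg (by linarith) (by linarith)
    linarith
  have ha1 : 0 < 1 + a := by linarith
  have ht1 : 0 < 1 + t := by linarith
  have e₁ : (2 + g * S) * (10 * (1 + a)) = 20 * (1 + a) + (4 + a) * S := by
    rw [hga]; field_simp; ring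
  refine le_poly (poly_nonneg_of_check hc (vv (S - 3) a t) (vv_nonneg (by linarith) ha ht) ?_ ?_)
    ?_ ?_ ?_
  · simp [oneA, Ex.ev, vv]; linarith
  · simp [sE, oneA, oneT, Ex.ev, vv]; positivity
  · simp [sE, Ex.ev, vv]
  · simp [oneA, Ex.ev, vv]; rw [hga]; field_simp; ring
  · simp [sE, oneA, oneT, Ex.ev, vv]
    rw [show U = 2 * (2 + g * S) * ((S + 4) * U / (2 * (2 + g * S))) / (S + 4) by field_simp, htu]
    field_simp
    linear_combination (-1) * ((u : ℝ) + l * t) * e₁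

theorem nonneg_boxK {S g U : ℝ} {l u : ℤ} (hc : check 3 (boxK l u) = true) (hS : 3 ≤ S)
    (hg : 0 < g) (hg' : g ≤ 1 / 10) (h₁ : (l : ℝ) < U / g) (h₂ : U / g ≤ (u : ℝ)) :
    0 ≤ poly S g U := by
  obtain ⟨a, ha, hga⟩ := exists_mean hg hg'
  obtain ⟨t, ht, htu⟩ := exists_mean h₁ h₂
  have ha1 : 0 < 1 + a := by linarith
  have ht1 : 0 < 1 + t := by linarith
  refine le_poly (poly_nonneg_of_check hc (vv (S - 3) a t) (vv_nonneg (by linarith) ha ht) ?_ ?_)
    ?_ ?_ ?_
  · simp [oneA, Ex.ev, vv]; linarith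
  · simp [oneA, oneT, Ex.ev, vv]; positivity
  · simp [sE, Ex.ev, vv]
  · simp [oneA, Ex.ev, vv]; rw [hga]; field_simp; ring
  · simp [oneA, oneT, Ex.ev, vv]
    rw [show U = g * (U / g) by field_simp, htu, hga]
    field_simp
    ring

theorem nonneg_boxJ {S g U : ℝ} (hS : 3 ≤ S) (hg : 0 < g) (hU : 4 * g < U) (hU' : U ≤ 1) :
    0 ≤ poly S g U := by
  have hU0 : 0 < U := by linarith
  obtain ⟨a, ha, hga⟩ := exists_mean (div_pos hg hU0) (show g / U ≤ 1 / 4 by
    rw [div_le_iff₀ hU0]; linarith)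
  obtain ⟨t, ht, htu⟩ := exists_mean hU0 hU'
  have ha1 : 0 < 1 + a := by linarith
  have ht1 : 0 < 1 + t := by linarith
  refine le_poly (poly_nonneg_of_check check_J (vv (S - 3) a t) (vv_nonneg (by linarith) ha ht) ?_ ?_)
    ?_ ?_ ?_
  · simp [oneA, oneT, Ex.ev, vv]; positivity
  · simp [oneT, Ex.ev, vv]; linarith
  · simp [sE, Ex.ev, vv]
  · simp [oneA, oneT, Ex.ev, vv]
    rw [show g = U * (g / U) by field_simp, hga, htu]
    field_simp
    ring
  · simp [oneT, Ex.ev, vv]; rw [htu]; field_simp; ring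

theorem poly_nonneg {S g U : ℝ} (hS : 3 ≤ S) (hg : 0 < g) (hg' : g ≤ 2 / 5) (hU : 0 < U)
    (hU' : (S + 4) * U ≤ 2 * (2 + g * S)) : 0 ≤ poly S g U := by
  have hS4 : 0 < S + 4 := by linarith
  have hA : 0 < 2 * (2 + g * S) := lt_of_lt_of_le (mul_pos hS4 hU) hU'
  by_cases hbig : 1 / 10 < g
  · set r := (S + 4) * U / (2 * (2 + g * S)) with hr
    have h0 : 0 < r := div_pos (mul_pos hS4 hU) hA
    have h1 : r ≤ 1 := (div_le_one hA).2 hU'
    rcases le_or_gt r (1 / 4) with h | h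
    · exact nonneg_boxG check_G1 hS hbig hg' (by norm_num) (by norm_num; exact h0) (by norm_num; linarith)
    rcases le_or_gt r (2 / 4) with h' | h'
    · exact nonneg_boxG check_G2 hS hbig hg' (by norm_num) (by norm_num; linarith) (by norm_num; linarith)
    · exact nonneg_boxG check_G3 hS hbig hg' (by norm_num) (by norm_num; linarith) (by norm_num; linarith)
  push Not at hbig
  by_cases hk : U ≤ 4 * g
  · rcases le_or_gt (U / g) 2 with h | h
    · exact nonneg_boxK check_K1 hS hg hbig (by norm_num; exact div_pos hU hg) (by norm_num; exact h)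
    · exact nonneg_boxK check_K2 hS hg hbig (by norm_num; exact h) (by norm_num; rw [div_le_iff₀ hg]; exact hk)
  push Not at hk
  refine nonneg_boxJ hS hg hk ?_
  have h2 := mul_le_mul_of_nonneg_right hg' (show 0 ≤ S by linarith)
  by_contra h
  push Not at h
  have := mul_lt_mul_of_pos_left h hS4
  linarith

open Orbit in
/-- The sign lemma: on the barrier the gap `U ^ 2 - 6 (1 - x)` decreases. -/
theorem barrier_sign {S f x z w : ℝ} (hS : 3 ≤ S) (hf : 3 / 5 ≤ f) (R : InRegion S f x z w)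
    (hU : 0 < (S + 2) * z - f * S)
    (hB : ((S + 2) * z - f * S) ^ 2 = 6 * (1 - x) + 6 * (1 - f) ^ 3) :
    2 * ((S + 2) * z - f * S) * (S + 2) * (rP S f z - x * rPm S f z w)
      + 6 * x * (2 * (1 - x) + x * (S + 2) * (f - w) / f) < 0 := by
  obtain ⟨g, rfl⟩ : ∃ g, f = 1 - g := ⟨1 - f, by ring⟩
  obtain ⟨U, rfl⟩ : ∃ U, z = ((1 - g) * S + U) / (S + 2) :=
    ⟨(S + 2) * z - (1 - g) * S, by field_simp; ring⟩
  have hN : 0 < S + 2 := by linarith
  have eU : (S + 2) * (((1 - g) * S + U) / (S + 2)) - (1 - g) * S = U := by field_simp; ring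
  rw [eU] at hU hB ⊢
  have hgf : 1 - (1 - g) = g := by ring
  rw [hgf] at hB
  have hg : 0 < g := by linarith [R.f_lt_one]
  have hf0 : 0 < 1 - g := by linarith
  have hy : 0 < 1 - x := by linarith [R.x_lt_one]
  set r := 1 - g - w with hr
  have hr0 : 0 ≤ r := by linarith [R.w_lt_f]
  -- `N P`
  have eP : (S + 2) * rP S (1 - g) (((1 - g) * S + U) / (S + 2))
      = 2 * (2 + g * S) - (S + 4) * U := by
    unfold rP; field_simp; ring
  have hP : 0 < 2 * (2 + g * S) - (S + 4) * U := eP ▸ mul_pos hN R.P_pos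
  have hF := poly_nonneg hS hg (by linarith) hU (by linarith)
  have hU6 : 6 * g ^ 3 ≤ U ^ 2 := by linarith
  have hQ : 0 < (1 - g) * S + 2 * U - 2 := by
    by_contra hn
    push Not at hn
    have h1 := mul_le_mul_of_nonneg_left hS hf0.le
    have h2 : 1 / 3 ≤ g := by linarith
    have h3 : (1 : ℝ) / 27 ≤ g ^ 3 := le_of_eq_of_le (by norm_num) (pow_le_pow_left₀ (by norm_num) h2 3)
    have h4 : U ^ 2 ≤ (1 / 10) ^ 2 := pow_le_pow_left₀ hU.le (by linarith) 2
    linarith
  have hAU : 0 ≤ 2 + g * S - U := by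
    have : 0 ≤ g * S := by positivity
    nlinarith
  have hm : (x * (S + 2) * r) * ((1 - g) * S + 2 * U - 2)
      ≤ (1 - g) * (1 - x) * (2 * (2 + g * S) - (S + 4) * U) := by
    have h := mul_nonneg (mul_nonneg hf0.le hN.le) R.w_mono
    rw [← eP]
    have e : (1 - g) * (S + 2) * ((1 - x) * rP S (1 - g) (((1 - g) * S + U) / (S + 2))
        - x * (1 - g - w) * (2 * (S + 2) * (((1 - g) * S + U) / (S + 2)) - S * (1 - g) - 2) / (1 - g))
        = (1 - g) * (1 - x) * ((S + 2) * rP S (1 - g) (((1 - g) * S + U) / (S + 2)))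
          - (x * (S + 2) * r) * ((1 - g) * S + 2 * U - 2) := by
      rw [hr]; field_simp; ring
    linarith
  -- the quantity, cleared
  set E := 2 * U * (S + 2) * (rP S (1 - g) (((1 - g) * S + U) / (S + 2))
      - x * rPm S (1 - g) (((1 - g) * S + U) / (S + 2)) w)
    + 6 * x * (2 * (1 - x) + x * (S + 2) * (1 - g - w) / (1 - g)) with hE
  have eE : (1 - g) * E = -(2 * U * (U * ((1 - 2 * g) * S - 2 * g + U)
        - (1 - x) * (2 + g * S - U) * (2 * (1 - g) - U))
      - 12 * x * (1 - x) * (1 - g) - (2 * U * (2 + g * S - U) + 6 * x) * (x * (S + 2) * r)) := by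
    rw [hE, hr]; unfold rP rPm; field_simp; ring
  have hx1 : (2 * U * (2 + g * S - U) + 6 * x) * ((1 - g) * (1 - x) * (2 * (2 + g * S) - (S + 4) * U))
      ≤ (2 * U * (2 + g * S - U) + 6) * ((1 - g) * (1 - x) * (2 * (2 + g * S) - (S + 4) * U)) :=
    mul_le_mul_of_nonneg_right (by linarith [R.x_lt_one])
      (mul_nonneg (mul_nonneg hf0.le hy.le) hP.le)
  have hc : 0 ≤ 2 * U * (2 + g * S - U) + 6 * x := by
    have := R.x_pos
    positivity
  have hx2 := mul_le_mul_of_nonneg_left hm hc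
  have hx3 : 0 < ((1 - g) * S + 2 * U - 2) * (12 * (1 - g) * (1 - x) * (1 - x)) := by positivity
  have ey : 1 - x = (U ^ 2 - 6 * g ^ 3) / 6 := by linarith
  have key : ((1 - g) * S + 2 * U - 2) * ((1 - g) * E) ≤ -poly S g U / 6
      - ((1 - g) * S + 2 * U - 2) * (12 * (1 - g) * (1 - x) * (1 - x)) := by
    rw [eE]
    have : poly S g U / 6 = ((1 - g) * S + 2 * U - 2) * (2 * U * (U * ((1 - 2 * g) * S - 2 * g + U)
        - (1 - x) * (2 + g * S - U) * (2 * (1 - g) - U)) - 12 * (1 - x) * (1 - g))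
        - (2 * U * (2 + g * S - U) + 6) * ((1 - g) * (1 - x) * (2 * (2 + g * S) - (S + 4) * U)) := by
      rw [ey]; unfold poly; ring
    linarith
  by_contra hn
  push Not at hn
  have : 0 ≤ ((1 - g) * S + 2 * U - 2) * ((1 - g) * E) :=
    mul_nonneg hQ.le (mul_nonneg hf0.le hn)
  linarith

open Orbit in
/-- The upper barrier on the forward orbit, with slack `6 g ^ 3`, for `α / S ≥ 3/5`. -/
theorem upper_barrier_six {N p q a T : ℝ} {U V : ℝ → ℝ} (hN : 5 ≤ N) (hp : 0 < p) (hq : 0 < q)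
    (g : Ground N p q a U V) (hqp : q < p) (hc : N / (p + 1) + N / (q + 1) = N - 2)
    (hf : 3 / 5 ≤ N / (q + 1) / (N - 2)) (hT : 0 < T) :
    N * pZeta N p q U V T - N / (q + 1) ≤ 0 ∨
      (N * pZeta N p q U V T - N / (q + 1)) ^ 2
        ≤ 6 * (1 - qX N p U V T / (N - 2)) + 6 * (1 - N / (q + 1) / (N - 2)) ^ 3 := by
  have hS : 0 < N - 2 := by linarith
  have hf1 := (g.inRegion (by linarith) hp hq hqp hc hT).f_lt_one
  refine g.upper_barrier (by linarith) hp hq hqp hc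
    (mul_nonneg (by norm_num) (pow_nonneg (by linarith) 3)) (fun x z w R hU hB => ?_) hT
  have h := barrier_sign (S := N - 2) (by linarith) hf R
  have eN : N - 2 + 2 = N := by ring
  have eα : N / (q + 1) / (N - 2) * (N - 2) = N / (q + 1) := div_mul_cancel₀ _ hS.ne'
  rw [eN, eα] at h
  exact h hU hB

end Vale.Agent.P100.R4
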